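import Vale.Agent.P281.H303.TC.Stat
import Vale.Agent.P281.H64.TV.Fin
import Vale.Agent.P281.H64.TW.Fin
import Vale.Agent.P281.H383.C.All
import Vale.Agent.P281.H603.C.TE
import Vale.Agent.P281.H364.V.Neat

/-!
# P281: the theorem on manifolds in Fujiki's class
-/

open Set
open Vale.Agent.P272.K (Chart IsKahler)
open Vale.Agent.P281 Vale.Agent.P281.H713.TZ.S
open Vale.Agent.P281.H511.Surf (IsFibration)
open Vale.Agent.P281.H64.Thin (IsThinSet)
open Vale.Agent.P281.H64.StatV (IsCover GaussRank IsGen Kahler isCover_iff thin_union)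
open Vale.Agent.P281.H64.TW (HasNeatModel)
open scoped Manifold ContDiff Topology

noncomputable section

namespace Vale.Agent.P281.H303.StatC

/-- **T-E** for `X` in Fujiki's class -/
theorem teC {p d : ℕ} {X Y : Type} [TopologicalSpace X]
    [ChartedSpace (Cm (p + d)) X] [TopologicalSpace Y] [ChartedSpace (Cm p) Y]
    (f : X → Y) (Δ : Set X → ℝ) (hd : 0 < d)
    (h : IsFibration (Cm (p + d)) (Cm p) f Δ) (hX : H383.C.ModKahler (p + d) X) :
    ∃ H : ℕ → Set Y, (∀ k, IsThinSet (Cm p) (H k)) ∧ ∀ y, (∀ k, y ∉ H k) →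
      ∀ (F : Type) [TopologicalSpace F] [T2Space F] [ChartedSpace (Cm d) F] (i : F → X),
        H511.Surf.IsFibre (Cm (p + d)) (Cm d) f y i →
        (∀ r : ℕ, H64.TK.GaussRank d F r → ((r : ℕ∞) : WithBot ℕ∞) +
          kodF (p + d) p Δ (id : X → X) f ≤ kodX (Cm (p + d)) Δ) ∧
        (H303.TE.CondE (p + d) d i Δ → kodR (Cm (p + d)) (Cm d) i Δ +
          kodF (p + d) p Δ (id : X → X) f ≤ kodX (Cm (p + d)) Δ) := by
  obtain ⟨X₁, _, _, u, hu, w, hw⟩ := hX
  exact H303.TE.all_e hd h fun r => H603.C.teC (H389.C.degC H383.C.dglob) H152.K.ab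
    H603.TE.coreS H303.TE.fibE H383.KN.genN H383.KN.imgN H737.Gen.exc H303.UF.crit
    H383.Gen.compl H485.Gen.har (H603.C.albC H64.TK.inputs H383.C.dglob H383.C.boundC)
    H511.E.hasM H383.U.liftT H383.C.cTameOK hd h hu hw

theorem forFibres {p d : ℕ} (hd : 0 < d) {X Y : Type} [TopologicalSpace X]
    [ChartedSpace (Cm (p + d)) X] [TopologicalSpace Y] [ChartedSpace (Cm p) Y]
    (f : X → Y) (Δ : Set X → ℝ) (h : IsFibration (Cm (p + d)) (Cm p) f Δ)
    (hX : ClassC (p + d) X) :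
    ForFibres (p + d) p d f Δ (kodF (p + d) p Δ (id : X → X) f) := by
  obtain ⟨H, hH, hmain⟩ := teC f Δ hd h hX
  obtain ⟨H', hH', hmain'⟩ := H383.C.tudC p d X Y f Δ hd h hX
  obtain ⟨K, hK, hKy⟩ := thin_union hH hH'
  refine ⟨K, hK, fun y hy F F' _ _ _ i _ _ π hi hπ => ⟨fun r hr => ?_, fun hc => ?_⟩⟩
  · have := hπ.1
    have := h.manifold.1
    exact (hmain y (hKy y hy).1 F' (fun t => i (π t)) ((isCover_iff.1 hπ).fibre hi)).1 r hr
  · rcases hc with h2 | h2 | h2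
    · have := hπ.1
      have := h.manifold.1
      exact hmain' y (hKy y hy).2 F i hi ⟨F', inferInstance, inferInstance, inferInstance,
        fun t => i (π t), (isCover_iff.1 hπ).fibre hi, h2⟩
    · exact (hmain y (hKy y hy).1 F i hi).2
        ⟨F', inferInstance, inferInstance, π, isCover_iff.1 hπ, Or.inl h2⟩
    · exact (hmain y (hKy y hy).1 F i hi).2
        ⟨F', inferInstance, inferInstance, π, isCover_iff.1 hπ, Or.inr (Or.inr h2)⟩

theorem ForFibres.mono {n p d : ℕ} {X Y : Type} [TopologicalSpace X] [ChartedSpace (Cm n) X]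
    [TopologicalSpace Y] [ChartedSpace (Cm p) Y] {f : X → Y} {Δ : Set X → ℝ}
    {a b : WithBot ℕ∞} (h : ForFibres n p d f Δ b) (hab : a ≤ b) : ForFibres n p d f Δ a := by
  obtain ⟨H, hH, hmain⟩ := h
  refine ⟨H, hH, fun y hy F F' _ _ _ i _ _ π hi hπ => ⟨fun r hr => ?_, fun hc => ?_⟩⟩
  · exact (add_le_add le_rfl hab).trans ((hmain y hy F F' i π hi hπ).1 r hr)
  · exact (add_le_add le_rfl hab).trans ((hmain y hy F F' i π hi hπ).2 hc)

theorem statC {p d : ℕ} (hd : 0 < d) {X Y : Type} [tX : TopologicalSpace X]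
    [cX : ChartedSpace (Cm (p + d)) X] [tY : TopologicalSpace Y] [cY : ChartedSpace (Cm p) Y]
    (f : X → Y) (Δ : Set X → ℝ) (hf : IsFibration (Cm (p + d)) (Cm p) f Δ)
    (hX : ClassC (p + d) X) :
    ForFibres (p + d) p d f Δ (kodF (p + d) p Δ (id : X → X) f) ∧
      KapLe (Cm (p + d)) (Cm p) f Δ (kodF (p + d) p Δ (id : X → X) f) ∧
      (p = 1 ∨ HasNeatModel (p + d) p f Δ → ForFibres (p + d) p d f Δ
        (kap (Cm (p + d)) (Cm p) ⟨X, Y, tX, tY, cX, cY, f, Δ⟩)) := by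
  have h := forFibres hd f Δ hf hX
  exact ⟨h, H364.Gen.kapLe_of H303.UF.crit H383.Gen.compl H364.Gen.compStmt hf,
    fun hn => h.mono (H64.TW.kap_le_kodF hf (H364.V.neat_or hf hn.symm))⟩

end Vale.Agent.P281.H303.StatC
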