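import Vale.Agent.P281.H303.TC.Fin
import Vale.Agent.P281.H303.X.Fin

/-!
# P281: the theorem on manifolds in Fujiki's class, with mild exceptional divisors
-/

open Set
open Vale.Agent.P281 Vale.Agent.P281.H713.TZ.S
open Vale.Agent.P281.H511.Surf (IsFibration)
open scoped Manifold ContDiff Topology

noncomputable section

namespace Vale.Agent.P281.H303.StatC

theorem statM {p d : ℕ} (hd : 0 < d) {X Y : Type} [tX : TopologicalSpace X]
    [cX : ChartedSpace (Cm (p + d)) X] [tY : TopologicalSpace Y] [cY : ChartedSpace (Cm p) Y]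
    (f : X → Y) (Δ : Set X → ℝ) (hf : IsFibration (Cm (p + d)) (Cm p) f Δ)
    (hX : ClassC (p + d) X) :
    ForFibres (p + d) p d f Δ (kodF (p + d) p Δ (id : X → X) f) ∧
      KapLe (Cm (p + d)) (Cm p) f Δ (kodF (p + d) p Δ (id : X → X) f) ∧
      (p = 1 ∨ H303.X.HasMildModel (p + d) p f Δ → ForFibres (p + d) p d f Δ
        (kap (Cm (p + d)) (Cm p) ⟨X, Y, tX, tY, cX, cY, f, Δ⟩)) := by
  obtain ⟨h1, h2, -⟩ := statC hd f Δ hf hX
  exact ⟨h1, h2, fun hn => h1.mono (H303.X.kap_le_or hf hn)⟩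

end Vale.Agent.P281.H303.StatC
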